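import Vale.Agent.P181.Bdl.K_Bdl_K_Defs
import Vale.Agent.P181.H280.Defs

set_option autoImplicit false

open scoped TensorProduct

universe u

namespace Vale.Agent.P181.H421

/-- The space `Sym^a(Sym^b V)`. -/
abbrev PP (a b : ℕ) (V : Type u) [AddCommGroup V] [Module ℂ V] : Type u := Sym[ℂ]^a (Sym[ℂ]^b V)

/-- The product `∏_i (v_i1 ⋯ v_ib)` in `Sym^a(Sym^b V)`. -/
noncomputable def prodRows {a b : ℕ} {V : Type u} [AddCommGroup V] [Module ℂ V]
    (v : Fin a → Fin b → V) : PP a b V :=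
  SymmetricPower.tprod ℂ (fun i => SymmetricPower.tprod ℂ (fun j => v i j))

/-- The sum over `σ ∈ (S_b)^a` of the products `∏_j (v_{1,σ_1(j)} ⋯ v_{a,σ_a(j)})` in
`Sym^b(Sym^a V)`. -/
noncomputable def sumCols {a b : ℕ} {V : Type u} [AddCommGroup V] [Module ℂ V]
    (v : Fin a → Fin b → V) : PP b a V :=
  ∑ σ : Fin a → Equiv.Perm (Fin b), prodRows (fun j i => v i (σ i j))

/-- `Ψ` commutes with the maps induced by every linear `g : V → V`. -/
def Commutes {a b : ℕ} {V : Type u} [AddCommGroup V] [Module ℂ V]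
    (Ψ : PP a b V →ₗ[ℂ] PP b a V) : Prop :=
  ∀ g : V →ₗ[ℂ] V, Ψ ∘ₗ symMap a (symMap b g) = symMap b (symMap a g) ∘ₗ Ψ

/-- For every finite-dimensional complex vector space `V`, the canonical (Foulkes-Howe) map
`Sym^a(Sym^b V) → Sym^b(Sym^a V)` (arrange the `ab` vectors in `a` rows of length `b`, permute
within rows, multiply along columns) commutes with the linear endomorphisms of `V` and is
injective. -/
def CanonicalInjective (a b : ℕ) : Prop :=
  ∀ (V : Type u) [AddCommGroup V] [Module ℂ V] [FiniteDimensional ℂ V],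
    ∃ Ψ : PP a b V →ₗ[ℂ] PP b a V,
      (∀ v : Fin a → Fin b → V, Ψ (prodRows v) = sumCols v) ∧ Commutes Ψ ∧ Function.Injective Ψ

/-- For `V = ℂ^n` there is one linear map `Ψ : Sym^a(Sym^{qa} V) → Sym^{qa}(Sym^a V)` which
commutes with all linear endomorphisms of `V` and is injective on the highest weight vectors of
weight `λ`, for any `λ` whose first `a` entries are at least `2q - 3`; and, for all these `λ`, the
multiplicity of `S_λ V` in `Sym^a(Sym^{qa} V)` is at most its multiplicity in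
`Sym^{qa}(Sym^a V)`. -/
def TallInequality (a q n : ℕ) : Prop :=
  ∃ Ψ : H280.Pleth a (q * a) n →ₗ[ℂ] H280.Pleth (q * a) a n, H280.IsEquivariant Ψ ∧
    ∀ lam : Fin n → ℕ, (∀ i : Fin n, (i : ℕ) < a → 2 * q ≤ lam i + 3) →
      H280.InjOnHW Ψ lam ∧ H280.plethMult a (q * a) n lam ≤ H280.plethMult (q * a) a n lam

end Vale.Agent.P181.H421
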